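import Crest.Agent.N067.V.Phi2

/-!
# Row 67 (helper55): the two-point function `φ₊`, part 3 (degenerate contacts, sign of `Ef`, X1)
-/

set_option autoImplicit false

open MeasureTheory Laplacian InnerProductSpace Topology Filter Set Metric
open scoped RealInnerProductSpace ContDiff Gradient NNReal

namespace Crest.Agent.N067.V

open Crest.Agent.R077

noncomputable section

variable {n : ℕ} {f g v : EE n → ℝ} {x p e : EE n} {φ : ℝ}

/-! ### calculus of `dr` -/

theorem dr_add (hf : DifferentiableAt ℝ f x) (hg : DifferentiableAt ℝ g x) (a : EE n) :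
    dr a (fun y => f y + g y) x = dr a f x + dr a g x := by
  rw [dr, fderiv_fun_add hf hg]; rfl

theorem dr_sub (hf : DifferentiableAt ℝ f x) (hg : DifferentiableAt ℝ g x) (a : EE n) :
    dr a (fun y => f y - g y) x = dr a f x - dr a g x := by
  rw [dr, fderiv_fun_sub hf hg]; rfl

theorem dr_mul (hf : DifferentiableAt ℝ f x) (hg : DifferentiableAt ℝ g x) (a : EE n) :
    dr a (fun y => f y * g y) x = dr a f x * g x + f x * dr a g x := by
  rw [dr, fderiv_fun_mul hf hg]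
  simp only [add_apply, smul_apply, smul_eq_mul, dr]; ring

theorem dr_const_mul (hf : DifferentiableAt ℝ f x) (c : ℝ) (a : EE n) :
    dr a (fun y => c * f y) x = c * dr a f x := by
  rw [dr, fderiv_const_mul hf]; rfl

theorem dr_of_pdv {c : ℝ} (h : ∀ i, pdv i f x = c * pdv i g x) (a : EE n) :
    dr a f x = c * dr a g x := by
  simp only [dr_eq_sum, h, Finset.mul_sum]
  exact Finset.sum_congr rfl fun i _ => by ring

theorem dr_comm (hf : ContDiffAt ℝ 2 f x) (a b : EE n) : dr a (dr b f) x = dr b (dr a f) x :=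
  St.dir_comm hf a b

theorem dr_dr (hf : ContDiff ℝ ∞ f) (a b : EE n) : dr a (dr b f) = fun y => hb f y a b :=
  funext fun y => fderiv_dr (c2_of hf y) a b

theorem dr_gin (hf : ContDiffAt ℝ 2 f x) (hg : ContDiffAt ℝ 2 g x) (a : EE n) :
    dr a (gin f g) x = gin (dr a f) g x + gin f (dr a g) x := by
  change fderiv ℝ (fun y => ∑ j, pdv j f y * pdv j g y) x a = _
  rw [fderiv_fun_sum (A := fun j y => pdv j f y * pdv j g y)
    fun j _ => (diffAt_pdv hf j).mul (diffAt_pdv hg j), gin, gin, ← Finset.sum_add_distrib,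
    FunLike.coe_sum, Finset.sum_apply]
  refine Finset.sum_congr rfl fun j _ => (dr_mul (diffAt_pdv hf j) (diffAt_pdv hg j) a).trans ?_
  rw [show dr a (pdv j f) x = pdv j (dr a f) x from dr_comm hf a (ev j),
    show dr a (pdv j g) x = pdv j (dr a g) x from dr_comm hg a (ev j)]

theorem dr_v (hv : Sol v) (a x : EE n) : dr a v x = psi v x / √2 * dr a (dd v) x :=
  dr_of_pdv (fun i => hv.pdv_v i x) a

theorem dr_psi (hv : Sol v) (a x : EE n) :
    dr a (psi v) x = -√2 * v x * psi v x * dr a (dd v) x := dr_of_pdv (fun i => hv.pdv_psi i x) a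

theorem dr_tt (hv : Sol v) (a x : EE n) :
    dr a (tt v) x = -2 * hb (dd v) x (∇ (dd v) x) a := by
  have cd := c2_of hv.dd_sm x
  have e : tt v = fun y => 1 - gin (dd v) (dd v) y := by simp only [gin_self, tt_fun]
  rw [e, dr_sub (differentiableAt_const _) ((contDiffAt_gin (m := 1) cd cd (by norm_num)
    ).differentiableAt (by simp)), dr_gin cd cd, gin_comm (dr a _), gin_dr cd]
  simp only [dr, fderiv_fun_const, Pi.zero_apply, zero_apply]
  ring


theorem Lm_dr_comm (hv : Sol v) (hg : ContDiff ℝ ∞ g) (a x : EE n) :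
    Lm v (dr a g) x = dr a (Lm v g) x + 2 * psi v x * dr a (dd v) x * gin (dd v) g x
      + 2 * √2 * v x * gin (dr a (dd v)) g x := by
  have cd := c2_of hv.dd_sm x
  have d1 := (contDiffAt_gin (m := 1) cd (c2_of hg x) (by norm_num)).differentiableAt (by simp)
  have d2 : DifferentiableAt ℝ (fun y => 2 * √2 * v y) x := (hv.diff x).const_mul _
  have h3 : (Δ (dr a g)) x = dr a (Δ g) x := St.lap_dir (contDiff_infty.1 hg 3) a x
  rw [show Lm v g = _ from funext (Lm_eq v g), dr_sub ((contDiffAt_lap (m := 1)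
    (contDiff_infty.1 hg 3).contDiffAt (by norm_num)).differentiableAt (by simp)) (d2.fun_mul d1),
    dr_mul d2 d1, dr_const_mul (hv.diff x), dr_v hv, dr_gin cd (c2_of hg x), Lm_eq, h3]
  have := sqrt2_pos
  field_simp
  ring

/-- the equation of `B(a, b)` -/
theorem Lm_hb (hv : Sol v) (a b x : EE n) :
    Lm v (fun y => hb (dd v) y a b) x = -qq v x * hb (dd v) x a b
      + √2 * v x * qq v x * dr a (dd v) x * dr b (dd v) x
      + 2 * psi v x * (hb (dd v) x (∇ (dd v) x) a * dr b (dd v) x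
        + dr a (dd v) x * hb (dd v) x (∇ (dd v) x) b)
      + 2 * √2 * v x * gin (dr a (dd v)) (dr b (dd v)) x := by
  have cd := c2_of hv.dd_sm x
  have d1 := hv.psi_sm.differentiable (by simp) x
  have d2 := (dr_sm hv.dd_sm b).differentiable (by simp) x
  have e : Lm v (dr b (dd v)) = fun y => -1 * (psi v y * tt v y * dr b (dd v) y) :=
    funext fun y => by rw [Lm_dr hv, qq]; ring
  rw [← dr_dr hv.dd_sm, Lm_dr_comm hv (dr_sm hv.dd_sm b), e,
    dr_const_mul ((d1.fun_mul (hv.tt_diff x)).fun_mul d2), dr_mul (d1.fun_mul (hv.tt_diff x)) d2,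
    dr_mul d1 (hv.tt_diff x), dr_psi hv, dr_tt hv, gin_dr cd, dr_dr hv.dd_sm, qq]
  ring

/-! ### degenerate contacts -/

theorem third_eq_zero {g g1 g2 : ℝ → ℝ} {c : ℝ} (h1 : ∀ s, HasDerivAt g (g1 s) s)
    (h2 : ∀ s, HasDerivAt g1 (g2 s) s) (h3 : HasDerivAt g2 c 0) (z0 : g 0 = 0) (z1 : g1 0 = 0)
    (z2 : g2 0 = 0) (h : ∀ᶠ s in 𝓝 0, 0 ≤ g s) : c = 0 := by
  have t2 : Tendsto (fun s => g2 s / s) (𝓝[≠] 0) (𝓝 c) := by
    simpa [z2, div_eq_inv_mul] using h3.tendsto_slope_zero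
  have t1 : Tendsto (fun s => g1 s / (s ^ 2 / 2)) (𝓝[≠] 0) (𝓝 c) :=
    HasDerivAt.lhopital_zero_nhdsNE (Eventually.of_forall h2)
      (Eventually.of_forall fun s => by simpa using (hasDerivAt_pow 2 s).div_const 2)
      self_mem_nhdsWithin (Tendsto.mono_left ((h2 0).continuousAt.tendsto.trans_eq
        (congrArg _ z1)) nhdsWithin_le_nhds)
      ((Continuous.tendsto' (by fun_prop) 0 0 (by simp)).mono_left nhdsWithin_le_nhds) t2
  have t0 : Tendsto (fun s => g s / (s ^ 3 / 6)) (𝓝[≠] 0) (𝓝 c) :=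
    HasDerivAt.lhopital_zero_nhdsNE (Eventually.of_forall h1)
      (Eventually.of_forall fun s => ((hasDerivAt_pow 3 s).div_const 6).congr_deriv (by ring))
      (eventually_mem_nhdsWithin.mono fun s hs => by have : s ≠ 0 := hs; positivity)
      (Tendsto.mono_left ((h1 0).continuousAt.tendsto.trans_eq (congrArg _ z0)) nhdsWithin_le_nhds)
      ((Continuous.tendsto' (by fun_prop) 0 0 (by simp)).mono_left nhdsWithin_le_nhds) t1
  refine le_antisymm (le_of_tendsto (t0.mono_left (nhdsLT_le_nhdsNE 0)) ?_)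
    (ge_of_tendsto (t0.mono_left (nhdsGT_le_nhdsNE 0)) ?_)
  · filter_upwards [mem_nhdsWithin_of_mem_nhds h, self_mem_nhdsWithin] with s h1 h2
    exact div_nonpos_of_nonneg_of_nonpos h1 (by linarith [Odd.pow_neg (by decide : Odd 3) (show s < 0 from h2)])
  · filter_upwards [mem_nhdsWithin_of_mem_nhds h, self_mem_nhdsWithin] with s h1 h2
    have : 0 < s := h2
    positivity

/-- `B + φ ≥ 0` from the short chords -/
theorem hb_add_nonneg' (hf : ContDiff ℝ ∞ f) (h : ∀ᶠ y in 𝓝 0, tay f y x ≤ φ / 2 * ‖y‖ ^ 2)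
    (a : EE n) : 0 ≤ hb f x a a + φ * ‖a‖ ^ 2 := by
  refine le_of_forall_pos_le_add fun ε hε => ?_
  have h1 : Tendsto (fun s : ℝ => s • a) (𝓝[>] 0) (𝓝 0) :=
    (Continuous.tendsto' (by fun_prop) 0 0 (by simp)).mono_left nhdsWithin_le_nhds
  obtain ⟨s, ⟨h2, h3⟩, hs⟩ := ((h1.eventually ((tay_small hf x (ε := ε / (2 * (1 + ‖a‖ ^ 2)))
    (by positivity)).and h)).and self_mem_nhdsWithin).exists
  have h4 := (abs_le.1 h2).1
  have h5 : ε / (2 * (1 + ‖a‖ ^ 2)) * ‖a‖ ^ 2 ≤ ε / 2 := by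
    rw [div_mul_eq_mul_div, div_le_iff₀ (by positivity)]; nlinarith
  have h6 := pow_pos (show 0 < s from hs) 2
  simp only [map_smul, smul_apply, smul_eq_mul, norm_smul, mul_pow,
    Real.norm_eq_abs, sq_abs] at h3 h4
  refine le_of_mul_le_mul_left ?_ h6
  nlinarith

/-- Rayleigh quotients are below every opening that works for short chords -/
theorem ray_le (hf : ContDiff ℝ ∞ f) (h0 : 0 ≤ φ)
    (h : ∀ᶠ y in 𝓝 0, tay f y x ≤ φ / 2 * ‖y‖ ^ 2) (a : EE n) : -hb f x a a / ‖a‖ ^ 2 ≤ φ :=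
  div_le_of_le_mul₀ (sq_nonneg _) h0 (by linarith [hb_add_nonneg' hf h a])

/-- Cauchy-Schwarz for `B + φ` -/
theorem hb_cs (hf : ContDiffAt ℝ 2 f x) (h : ∀ a, 0 ≤ hb f x a a + φ * ‖a‖ ^ 2) (a b : EE n) :
    (hb f x a b + φ * ⟪a, b⟫) ^ 2 ≤ (hb f x a a + φ * ‖a‖ ^ 2) * (hb f x b b + φ * ‖b‖ ^ 2) := by
  have := discrim_le_zero (a := hb f x b b + φ * ‖b‖ ^ 2) (b := 2 * (hb f x a b + φ * ⟪a, b⟫))
    (c := hb f x a a + φ * ‖a‖ ^ 2) fun s => (h (a + s • b)).trans_eq (by
      simp only [norm_add_sq_real, map_add, map_smul, add_apply, smul_apply, smul_eq_mul,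
        real_inner_smul_right, norm_smul, mul_pow, Real.norm_eq_abs, sq_abs, hb_symm hf b a]
      ring)
  rw [discrim] at this
  linarith

/-- a degenerate contact of the paraboloid of opening `φ` -/
structure Deg (v : EE n → ℝ) (φ : ℝ) (e x : EE n) : Prop where
  unit : ‖e‖ = 1
  eq : hb (dd v) x e e = -φ
  le : ∀ᶠ y in 𝓝 0, tay (dd v) y x ≤ φ / 2 * ‖y‖ ^ 2

theorem Deg.hb_eq (hc : Deg v φ e x) (hv : Sol v) (h : EE n) : hb (dd v) x e h = -φ * ⟪e, h⟫ := by
  have := hb_cs (c2_of hv.dd_sm x) (hb_add_nonneg' hv.dd_sm hc.le) e h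
  rw [hc.eq, hc.unit] at this
  linarith [pow_eq_zero_iff two_ne_zero |>.1 (le_antisymm (this.trans_eq (by ring)) (sq_nonneg _))]

theorem Deg.third (hc : Deg v φ e x) (hv : Sol v) :
    fderiv ℝ (fun y => hb (dd v) y e e) x e = 0 := by
  have l : ∀ {F : EE n → ℝ}, ContDiff ℝ ∞ F → ∀ s : ℝ,
      HasDerivAt (fun s : ℝ => F (x + s • e)) (dr e F (x + s • e)) s := fun hF s =>
    ((hF.differentiable (by simp) _).hasFDerivAt.comp_hasDerivAt s
      (((hasDerivAt_id s).smul_const e).const_add x)).congr_deriv (by simp [dr])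
  have s1 := dr_sm hv.dd_sm e
  have h1 : Tendsto (fun s : ℝ => s • e) (𝓝 0) (𝓝 0) :=
    Continuous.tendsto' (by fun_prop) 0 0 (by simp)
  rw [← dr_dr hv.dd_sm]
  refine third_eq_zero (g := fun s => dd v (x + s • e) - dd v x - dr e (dd v) x * s + φ / 2 * s ^ 2)
    (g1 := fun s => dr e (dd v) (x + s • e) - dr e (dd v) x + φ * s)
    (g2 := fun s => dr e (dr e (dd v)) (x + s • e) + φ)
    (fun s => ((((l hv.dd_sm s).sub_const _).sub ((hasDerivAt_id s).const_mul _)).add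
      ((hasDerivAt_pow 2 s).const_mul _)).congr_deriv (by ring))
    (fun s => (((l s1 s).sub_const _).add ((hasDerivAt_id s).const_mul _)).congr_deriv (by ring))
    (((l (dr_sm s1 e) 0).add_const φ).congr_deriv (by simp [dr])) (by simp) (by simp)
    (by simp [dr_dr hv.dd_sm, hc.eq]) ((h1.eventually hc.le).mono fun s hs => ?_)
  rw [tay, map_smul, norm_smul, hc.unit, mul_one, Real.norm_eq_abs, sq_abs, smul_eq_mul] at hs
  rw [dr]; linarith

/-- **X1, degenerate contact** (exact, for every `a`); the support is a Rayleigh quotient -/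
theorem Deg.x1 (hc : Deg v φ e x) (hv : Sol v) (a : EE n) :
    ∃ (E : EE n → EE n) (f : EE n → ℝ), Continuous E ∧ E x = e ∧
      (∀ y, f y = -hb (dd v) y (E y) (E y) / ‖E y‖ ^ 2) ∧ ContDiffAt ℝ 2 f x ∧ f x = φ ∧
      (∀ h, fderiv ℝ f x h = -fderiv ℝ (fun y => hb (dd v) y e e) x h) ∧
      Lm v f x = -qq v x * φ - 2 * √2 * v x * φ ^ 2
        + dr e (dd v) x ^ 2 * (4 * psi v x * φ - √2 * v x * qq v x)
        + (4 * fderiv ℝ f x a - 2 * (hb (dd v) x a a + φ * ‖a‖ ^ 2)) := by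
  have hee : ⟪e, e⟫ = 1 := by rw [real_inner_self_eq_norm_sq, hc.unit, one_pow]
  set σ := aff 0 e x with hσ
  have σx : σ x = 0 := aff_self ..
  have cd := c2_of hv.dd_sm
  have cσ : ContDiffAt ℝ 2 σ x := c2_of (aff_sm ..) x
  have cH : ∀ a b, ContDiffAt ℝ 2 (fun y => hb (dd v) y a b) x := fun a b => by
    rw [← dr_dr hv.dd_sm]; exact c2_of (dr_sm (dr_sm hv.dd_sm b) a) x
  set G : EE n → ℝ := fun y => hb (dd v) y e e + 2 * (σ y * hb (dd v) y e a)
    + σ y * σ y * hb (dd v) y a a with hG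
  set M : EE n → ℝ := fun y => 1 + 2 * ⟪e, a⟫ * σ y + ‖a‖ ^ 2 * (σ y * σ y) with hM
  have c1 := contDiffAt_const (c := (2 : ℝ)).mul (cσ.mul (cH e a))
  have c2 := (cσ.mul cσ).mul (cH a a)
  have c3 := contDiffAt_const (c := 2 * ⟪e, a⟫).mul cσ
  have c4 := contDiffAt_const (c := ‖a‖ ^ 2).mul (cσ.mul cσ)
  have cG : ContDiffAt ℝ 2 G x := ((cH e e).add c1).add c2
  have cM : ContDiffAt ℝ 2 M x := (contDiffAt_const.add c3).add c4
  have Mx : M x = 1 := by simp [hM, σx]
  set f : EE n → ℝ := fun y => -G y / M y with hf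
  have cf : ContDiffAt ℝ 2 f x := cG.neg.div cM (by simp [Mx])
  have fx : f x = φ := by simp [hf, Mx, hG, σx, hc.eq]
  have e2 : (fun y => f y * M y) =ᶠ[𝓝 x] fun y => -G y := by
    filter_upwards [cM.continuousAt.eventually_ne (y := 0) (by simp [Mx])] with y hy
    exact div_mul_cancel₀ _ hy
  have dσ : HasFDerivAt σ (innerSL ℝ e) x := hasFDerivAt_aff ..
  have dH := fun a b => ((cH a b).differentiableAt (by simp)).hasFDerivAt
  have dM := ((dσ.const_mul (2 * ⟪e, a⟫)).const_add 1).add ((dσ.mul dσ).const_mul (‖a‖ ^ 2))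
  have df : ∀ h, fderiv ℝ f x h = -fderiv ℝ (fun y => hb (dd v) y e e) x h := fun h => by
    have h1 := ((cf.differentiableAt (by simp)).hasFDerivAt.mul dM).unique
      ((((dH e e).add ((dσ.mul (dH e a)).const_mul 2)).add
        ((dσ.mul dσ).mul (dH a a))).neg.congr_of_eventuallyEq e2)
    have h2 := congrArg (fun T : EE n →L[ℝ] ℝ => T h) h1
    simp only [add_apply, smul_apply, neg_apply, smul_eq_mul, innerSL_apply_apply, σx, fx,
      Pi.mul_apply, Pi.add_apply, hc.hb_eq hv a] at h2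
    linarith
  refine ⟨fun y => e + σ y • a, f, continuous_const.add ((aff_sm ..).continuous.smul
    continuous_const), by simp only [σx, zero_smul, add_zero], fun y => ?_, cf, fx, df, ?_⟩
  · simp only [hf, hG, hM, norm_add_sq_real, map_add, map_smul, add_apply, smul_apply, smul_eq_mul,
      real_inner_smul_right, norm_smul, mul_pow, Real.norm_eq_abs, sq_abs, hb_symm (cd y) a e,
      hc.unit]
    ring
  have h1 := Lm_congr (v := v) e2
  have gσ : ∀ g, gin σ g x = fderiv ℝ g x e := fun g => gin_aff ..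
  have lσ : Lm v σ x = -(2 * √2 * v x * dr e (dd v) x) := Lm_aff ..
  have s3 : fderiv ℝ (fun y => hb (dd v) y e a) x e = fderiv ℝ (fun y => hb (dd v) y e e) x a := by
    rw [show (fun y => hb (dd v) y e a) = fun y => hb (dd v) y a e from
      funext fun y => hb_symm (cd y) e a, ← dr_dr hv.dd_sm, ← dr_dr hv.dd_sm]
    exact dr_comm (c2_of (dr_sm hv.dd_sm e) x) e a
  have g1 : gin f M x = 0 := by
    have : ∇ M x = (2 * ⟪e, a⟫) • e := ext_inner_right ℝ fun h => by
      rw [inner_grad, show fderiv ℝ M x = _ from dM.fderiv]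
      simp [σx, real_inner_smul_left]
    rw [gin_comm, gin_eq_fderiv, this, map_smul, df, hc.third hv]
    simp
  have g2 : gin (dr e (dd v)) (dr e (dd v)) x = φ ^ 2 := by
    have : ∇ (dr e (dd v)) x = -φ • e := ext_inner_right ℝ fun h => by
      rw [inner_grad, fderiv_dr (cd x), hb_symm (cd x), hc.hb_eq hv, real_inner_smul_left]
    rw [gin_eq, this, real_inner_smul_left, real_inner_smul_right, hee]; ring
  have g3 : hb (dd v) x (∇ (dd v) x) e = -φ * dr e (dd v) x := by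
    rw [hb_symm (cd x), hc.hb_eq hv, real_inner_comm, inner_grad, dr]
  have dσ' := cσ.differentiableAt (by simp)
  rw [Lm_mul cf cM, g1, Lm_neg cG, hG, Lm_add ((cH e e).add c1) c2, Lm_add (cH e e) c1,
    Lm_const_mul (cσ.mul (cH e a)), Lm_mul cσ (cH e a), Lm_mul (cσ.mul cσ) (cH a a), Mx, hM,
    Lm_add (contDiffAt_const.add c3) c4, Lm_add contDiffAt_const c3, Lm_const,
    Lm_const_mul cσ, Lm_const_mul (cσ.mul cσ), Lm_mul cσ cσ, gin_comm _ (fun y => hb _ y a a),
    gin_mul_right dσ' dσ', Lm_hb hv e e, g2, g3, gσ, gσ, lσ, s3, dσ.fderiv, σx, fx,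
    innerSL_apply_apply, hee, hc.eq, hc.hb_eq hv a] at h1
  rw [df]
  linarith

/-! ### the sign of the source term -/

theorem exp_dd (hv : Sol v) (x : EE n) : Real.exp (√2 * dd v x) * (1 - v x) = 1 + v x := by
  have h := abs_lt.1 (hv.lt x)
  have h1 : 0 < 1 - v x := by linarith [h.2]
  rw [dd, ← mul_assoc, sqrt2_mul, two_mul, Real.exp_add, Real.exp_artanh h,
    Real.mul_self_sqrt (div_nonneg (by linarith [h.1]) h1.le), div_mul_cancel₀ _ h1.ne']

/-- the source term `EE` of X1 and X2 is nonnegative if `t ≤ √2 φ` -/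
theorem EE_nonneg (hv : Sol v) {z : EE n} (ht : tt v x ≤ √2 * φ)
    (hz : tt v z = tt v x + 2 * φ * (dd v z - dd v x)) :
    0 ≤ √2 * (v z - v x) * tt v z - qq v x * (dd v z - dd v x) := by
  set s := √2 * (dd v z - dd v x) with hs
  have ha := abs_lt.1 (hv.lt x)
  have t0 := hv.tt_nonneg x
  have h1 : Real.exp s * (1 + v x) * (1 - v z) = (1 + v z) * (1 - v x) := by
    rw [← exp_dd hv x, ← exp_dd hv z, show √2 * dd v z = s + √2 * dd v x by rw [hs]; ring,
      Real.exp_add]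
    ring
  have h2 := Real.add_one_le_exp s
  have h3 : 0 ≤ (Real.exp s - 1) * s := by
    rcases le_total 0 s with h | h
    · exact mul_nonneg (by linarith) h
    · exact mul_nonneg_of_nonpos_of_nonpos (by linarith [Real.exp_le_one_iff.2 h]) h
  have hD : 0 < Real.exp s * (1 + v x) + (1 - v x) := by
    nlinarith [Real.exp_pos s]
  have h4 : (v z - v x) * (Real.exp s * (1 + v x) + (1 - v x)) = psi v x * (Real.exp s - 1) := by
    rw [psi]; linear_combination -h1
  have h5 : (√2 * (v z - v x) * tt v z - qq v x * (dd v z - dd v x)) *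
      (√2 * (Real.exp s * (1 + v x) + (1 - v x))) = psi v x * ((Real.exp s - 1) * s *
        (2 * (√2 * φ - tt v x) + tt v x * (1 - v x)) + 2 * tt v x * (Real.exp s - (s + 1))) := by
    rw [qq, hz]
    linear_combination 2 * (tt v x + 2 * φ * (dd v z - dd v x)) * h4 + ((v z - v x) * (Real.exp s *
      (1 + v x) + (1 - v x)) * (tt v x + 2 * φ * (dd v z - dd v x))
        - 2 * psi v x * (Real.exp s - 1) * φ * (dd v z - dd v x)) * sqrt2_mul
  refine nonneg_of_mul_nonneg_left (h5 ▸ mul_nonneg (hv.psi_pos x).le (add_nonneg (mul_nonneg h3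
    (by nlinarith)) (mul_nonneg (by linarith) (by linarith)))) (mul_pos sqrt2_pos hD)

theorem Far.Ef_nonneg (hc : Far v φ p x) (hv : Sol v) (ht : tt v x ≤ √2 * φ) : 0 ≤ Ef v p x :=
  mul_nonneg (by positivity) (EE_nonneg hv ht (hc.tt_eq))

theorem Deg.src_nonneg (hv : Sol v) (ht : tt v x ≤ √2 * φ) (e : EE n) :
    0 ≤ dr e (dd v) x ^ 2 * (4 * psi v x * φ - √2 * v x * qq v x) := by
  have h1 := (abs_lt.1 (hv.lt x)).2
  have h2 := hv.tt_nonneg x
  have h3 : √2 * v x * tt v x ≤ 4 * φ := by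
    have := mul_le_mul_of_nonneg_left ht sqrt2_pos.le
    rw [← mul_assoc, sqrt2_mul] at this
    nlinarith [mul_nonneg sqrt2_pos.le h2]
  exact mul_nonneg (sq_nonneg _) (by rw [qq]; nlinarith [hv.psi_pos x])

/-- the Kato term of a far contact dominates the one of `Deg.x1` -/
theorem kato_far (hf : ContDiffAt ℝ 2 f x) (h : ∀ a, 0 ≤ hb f x a a + φ * ‖a‖ ^ 2) (p a : EE n) :
    4 * (2 / ‖p‖ ^ 2 * (hb f x p a + φ * ⟪p, a⟫)) - 2 * (hb f x a a + φ * ‖a‖ ^ 2)
      ≤ 8 * (hb f x p p + φ * ‖p‖ ^ 2) / ‖p‖ ^ 4 := by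
  have := h ((2 / ‖p‖ ^ 2) • p - a)
  simp only [norm_sub_sq_real, map_sub, map_smul, sub_apply, smul_apply, smul_eq_mul,
    real_inner_smul_left, norm_smul, mul_pow, Real.norm_eq_abs, sq_abs, hb_symm hf a p] at this
  rw [show 8 * (hb f x p p + φ * ‖p‖ ^ 2) / ‖p‖ ^ 4 =
    2 * (2 / ‖p‖ ^ 2) ^ 2 * (hb f x p p + φ * ‖p‖ ^ 2) by ring]
  linarith

/-- **X1** for `φ₊ = phi (dd v)` -/
theorem x1 (hv : Sol v) (h0 : 0 < phi (dd v) x) (ht : tt v x ≤ √2 * phi (dd v) x) (a : EE n) :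
    ∃ f, Touch (phi (dd v)) f x ∧ -qq v x * phi (dd v) x - 2 * √2 * v x * phi (dd v) x ^ 2
      + (4 * fderiv ℝ f x a - 2 * (hb (dd v) x a a + phi (dd v) x * ‖a‖ ^ 2)) ≤ Lm v f x := by
  rcases contact hv h0 with ⟨p, hp, hc⟩ | ⟨e, he, hc⟩
  · have hF := Far.of_phi hv hp hc
    obtain ⟨P, f, -, -, h1, h2, h3, h4, h5⟩ := hF.x1 hv
    refine ⟨f, ⟨h2, h3, Eventually.of_forall fun y => (h1 y).trans_le (Zf_le hv _ y)⟩, ?_⟩
    rw [h4, h5]
    linarith [kato_far (c2_of hv.dd_sm x) (hb_add_nonneg hv x) p a, hF.Ef_nonneg hv ht]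
  · have hD : Deg v (phi (dd v) x) e x := ⟨he, hc, Eventually.of_forall fun y => tay_le hv y x⟩
    obtain ⟨E, f, -, -, h1, h2, h3, -, h5⟩ := hD.x1 hv a
    refine ⟨f, ⟨h2, h3, Eventually.of_forall fun y => ?_⟩, ?_⟩
    · rw [h1]
      exact div_le_of_le_mul₀ (sq_nonneg _) (phi_nonneg hv y)
        (by linarith [hb_add_nonneg hv y (E y)])
    · linarith [Deg.src_nonneg hv ht e]

end

end Crest.Agent.N067.V
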