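import Crest.Agent.N067.V.Weak
import Crest.Agent.N067.A.Stab

/-!
# Row 67 (helper55): weak subsolutions, part 2.
Classes `LocallyLipschitzOn`, `LB` (locally bounded), `SC`; weights; `weak_Lm`.
-/

set_option autoImplicit false
set_option linter.unusedSectionVars false

open MeasureTheory Laplacian InnerProductSpace Topology Filter Set Metric
open scoped RealInnerProductSpace ContDiff Gradient NNReal

namespace Crest.Agent.N067.V

open Crest.Agent.R077

noncomputable section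

variable {n : ℕ} {U W ζ f g m : EE n → ℝ} {x : EE n} {Ω K : Set (EE n)}

/-! ### locally Lipschitz functions -/

section LL

variable {G H : Type*} [NormedAddCommGroup G] [NormedSpace ℝ G] [NormedAddCommGroup H]
  [NormedSpace ℝ H]

theorem ll_comp {u : EE n → G} (hu : LocallyLipschitzOn Ω u) {F : G → H}
    (hF : ∀ x ∈ Ω, ContDiffAt ℝ 1 F (u x)) : LocallyLipschitzOn Ω fun x => F (u x) := by
  intro x hx
  obtain ⟨K, t, ht, h⟩ := hu hx
  obtain ⟨K', t', ht', h'⟩ := (hF x hx).exists_lipschitzOnWith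
  exact ⟨K' * K, t ∩ u ⁻¹' t', inter_mem ht (hu.continuousOn x hx ht'),
    h'.comp (h.mono inter_subset_left) fun _ hy => hy.2⟩

theorem ll_prod {u : EE n → G} {w : EE n → H} (hu : LocallyLipschitzOn Ω u)
    (hw : LocallyLipschitzOn Ω w) : LocallyLipschitzOn Ω fun x => (u x, w x) := by
  intro x hx
  obtain ⟨K, t, ht, h⟩ := hu hx
  obtain ⟨K', t', ht', h'⟩ := hw hx
  exact ⟨_, t ∩ t', inter_mem ht ht', (h.mono inter_subset_left).prodMk (h'.mono inter_subset_right)⟩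

theorem ll_of_contDiffAt {u : EE n → G} (hu : ∀ x ∈ Ω, ContDiffAt ℝ 1 u x) :
    LocallyLipschitzOn Ω u :=
  ll_comp (u := id) LipschitzWith.id.locallyLipschitz.locallyLipschitzOn hu

theorem ll_mul (hU : LocallyLipschitzOn Ω U) (hW : LocallyLipschitzOn Ω W) :
    LocallyLipschitzOn Ω fun x => U x * W x :=
  ll_comp (F := fun z : ℝ × ℝ => z.1 * z.2) (ll_prod hU hW) fun _ _ => by fun_prop

theorem ll_lip {u : EE n → G} (hu : LocallyLipschitzOn Ω u) {F : G → H} {L : ℝ≥0}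
    (hF : LipschitzWith L F) : LocallyLipschitzOn Ω fun x => F (u x) := fun _ hx =>
  let ⟨K, t, ht, h⟩ := hu hx
  ⟨L * K, t, ht, hF.comp_lipschitzOnWith h⟩

end LL

/-! ### locally bounded measurable functions -/

/-- measurable on `Ω`, bounded on compact subsets -/
structure LB (Ω : Set (EE n)) (g : EE n → ℝ) : Prop where
  ms : AEStronglyMeasurable g (volume.restrict Ω)
  bd : ∀ K ⊆ Ω, IsCompact K → ∃ C, ∀ x ∈ K, |g x| ≤ C

theorem LB.of_cont (hΩ : IsOpen Ω) (hg : ContinuousOn g Ω) : LB Ω g :=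
  ⟨hg.aestronglyMeasurable hΩ.measurableSet,
    fun _ h hK => hK.exists_bound_of_continuousOn (hg.mono h)⟩

theorem LB.pdv (hΩ : IsOpen Ω) (hU : LocallyLipschitzOn Ω U) (i : Fin n) : LB Ω (pdv i U) := by
  refine ⟨(measurable_pdv U i).aestronglyMeasurable, fun K h hK => ?_⟩
  obtain ⟨r, hr, h1⟩ := hK.exists_cthickening_subset_open hΩ h
  obtain ⟨L, hL⟩ := (hU.mono h1).exists_lipschitzOnWith_of_compact hK.cthickening
  refine ⟨L, fun x hx => ?_⟩
  have h2 := (fderiv ℝ U x).le_opNorm (ev i)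
  simp only [ev, PiLp.norm_single, norm_one, mul_one] at h2
  exact h2.trans (norm_fderiv_le_of_lipschitzOn ℝ (mem_of_superset (closedBall_mem_nhds x hr)
    (closedBall_subset_cthickening hx r)) hL)

theorem LB.comp {ι : Type*} [Fintype ι] {u : ι → EE n → ℝ} (hu : ∀ i, LB Ω (u i))
    {F : (ι → ℝ) → ℝ} (hF : Continuous F) : LB Ω fun x => F fun i => u i x := by
  refine ⟨hF.comp_aestronglyMeasurable (aemeasurable_pi_lambda _ fun i =>
    (hu i).ms.aemeasurable).aestronglyMeasurable, fun K h hK => ?_⟩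
  choose C hC using fun i => (hu i).bd K h hK
  obtain ⟨D, hD⟩ := (isCompact_Icc (a := fun i => -C i) (b := C)).exists_bound_of_continuousOn
    hF.continuousOn
  exact ⟨D, fun x hx => hD _ ⟨fun i => (abs_le.1 (hC i x hx)).1, fun i => (abs_le.1 (hC i x hx)).2⟩⟩

theorem LB.add (hf : LB Ω f) (hg : LB Ω g) : LB Ω fun x => f x + g x :=
  LB.comp (u := ![f, g]) (Fin.forall_fin_two.2 ⟨hf, hg⟩) (F := fun a => a 0 + a 1) (by fun_prop)

theorem LB.sub (hf : LB Ω f) (hg : LB Ω g) : LB Ω fun x => f x - g x :=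
  LB.comp (u := ![f, g]) (Fin.forall_fin_two.2 ⟨hf, hg⟩) (F := fun a => a 0 - a 1) (by fun_prop)

theorem LB.mul (hf : LB Ω f) (hg : LB Ω g) : LB Ω fun x => f x * g x :=
  LB.comp (u := ![f, g]) (Fin.forall_fin_two.2 ⟨hf, hg⟩) (F := fun a => a 0 * a 1) (by fun_prop)

theorem LB.comp1 (hf : LB Ω f) {F : ℝ → ℝ} (hF : Continuous F) : LB Ω fun x => F (f x) :=
  LB.comp (u := fun _ : Unit => f) (fun _ => hf) (F := fun a => F (a ())) (by fun_prop)

theorem LB.sum {ι : Type*} [Fintype ι] {u : ι → EE n → ℝ} (hu : ∀ i, LB Ω (u i)) :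
    LB Ω fun x => ∑ i, u i x := LB.comp hu (F := fun a => ∑ i, a i) (by fun_prop)

theorem LB.gin (hΩ : IsOpen Ω) (hU : LocallyLipschitzOn Ω U) (hW : LocallyLipschitzOn Ω W) :
    LB Ω (gin U W) := LB.sum fun i => (LB.pdv hΩ hU i).mul (LB.pdv hΩ hW i)

theorem LB.gsq (hΩ : IsOpen Ω) (hU : LocallyLipschitzOn Ω U) : LB Ω (gsq U) := by
  rw [← funext (gin_self U)]
  exact LB.gin hΩ hU hU

theorem LB.integrable (hg : LB Ω g) (hK : IsCompact K) (h : K ⊆ Ω) (h0 : ∀ x ∉ K, g x = 0) :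
    Integrable g := by
  obtain ⟨C, hC⟩ := hg.bd K h hK
  refine (integrableOn_iff_integrable_of_support_subset fun x hx =>
    by_contra fun h' => hx (h0 x h')).1 ?_
  exact Measure.integrableOn_of_bounded hK.measure_lt_top.ne
    ((aestronglyMeasurable_indicator_iff hK.measurableSet).2
      (hg.ms.mono_measure (Measure.restrict_mono h le_rfl)) |>.congr (Eventually.of_forall fun x => by
        by_cases hx : x ∈ K
        · exact indicator_of_mem hx _
        · rw [indicator_of_notMem hx, h0 x hx]))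
    ((ae_restrict_iff' hK.measurableSet).2 (Eventually.of_forall hC))

theorem gin_eq_zero (hx : x ∉ tsupport ζ) : gin U ζ x = 0 := by
  simp [gin, pdv, (notMem_tsupport_iff_eventuallyEq.1 hx).fderiv_eq]

/-! ### weights -/

/-- divergence form with a positive `C¹` weight -/
theorem weak_wt (hΩ : IsOpen Ω) (hU : SC Ω U) (hζ : LocallyLipschitzOn Ω ζ) (h0 : ∀ x, 0 ≤ ζ x)
    (hc : HasCompactSupport ζ) (hs : tsupport ζ ⊆ Ω) (hm : ContDiff ℝ 1 m) (hm0 : ∀ x, 0 < m x)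
    (hg : Integrable fun x => ζ x * g x)
    (hb : ∀ᵐ x, ζ x ≠ 0 → DifferentiableAt ℝ U x →
      ∀ ε > 0, ∃ f, Touch U f x ∧ g x - ε ≤ m x * (Δ f) x + gin m f x) :
    ∫ x, ζ x * g x ≤ -∫ x, gin U ζ x * m x := by
  have hU' := hU.locLip hΩ
  have hm' : LocallyLipschitzOn Ω m := ll_of_contDiffAt fun _ _ => hm.contDiffAt
  have i1 : Integrable fun x => ζ x * gin m U x :=
    ((LB.of_cont hΩ hζ.continuousOn).mul (LB.gin hΩ hm' hU')).integrable hc hs fun x hx => by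
      simp [image_eq_zero_of_notMem_tsupport hx]
  have i2 : Integrable fun x => gin U ζ x * m x :=
    ((LB.gin hΩ hU' hζ).mul (LB.of_cont hΩ hm'.continuousOn)).integrable hc hs fun x hx => by
      simp [gin_eq_zero hx]
  have e1 : ∀ x, ζ x * m x * ((g x - gin m U x) / m x) = ζ x * g x - ζ x * gin m U x := fun x => by
    have := (hm0 x).ne'
    field_simp
  have h1 := weak_on (g := fun x => (g x - gin m U x) / m x) hΩ hU (ll_mul hζ hm')
    (fun x => mul_nonneg (h0 x) (hm0 x).le) hc.mul_right (tsupport_mul_subset_left.trans hs)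
    (by simp only [e1]; exact hg.sub i1) (by
      filter_upwards [hb] with x hx h2 h3 ε hε
      obtain ⟨f, hf, h4⟩ := hx (left_ne_zero_of_mul h2) h3 _ (mul_pos hε (hm0 x))
      refine ⟨f, hf, ?_⟩
      have h5 : gin m f x = gin m U x := by simp only [gin, hf.pdv_eq h3]
      rw [sub_le_iff_le_add, div_le_iff₀ (hm0 x)]
      linarith)
  simp only [e1] at h1
  obtain ⟨L, hL⟩ := exists_lip hΩ hζ hc hs
  have e2 : ∫ x, gin U (fun y => ζ y * m y) x = ∫ x, (gin U ζ x * m x + ζ x * gin m U x) := by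
    refine integral_congr_ae ?_
    filter_upwards [hL.ae_differentiableAt] with x hx
    rw [gin_mul_right hx (hm.differentiable (by simp) x), gin_comm m]
  rw [integral_sub hg i1, e2, integral_add i2 i1] at h1
  linarith

theorem psi_Lm {v : EE n → ℝ} (hv : Sol v) (f : EE n → ℝ) (x : EE n) : psi v x ^ 2 * Lm v f x =
    psi v x ^ 2 * (Δ f) x + gin (fun y => psi v y ^ 2) f x := by
  have h1 : ∀ i, pdv i (fun y => psi v y ^ 2) x =
      -(2 * √2 * v x * psi v x ^ 2) * pdv i (dd v) x := fun i => by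
    have h2 : pdv i (psi v) x = -(2 * v x * pdv i v x) := by
      rw [← pdv_sq (hv.sm.differentiable (by simp) x)]
      exact pdv_const_sub 1 _ i x
    have h3 := (hv.psi_pos x).ne'
    have h4 : √2 * √2 = (2 : ℝ) := Real.mul_self_sqrt zero_le_two
    rw [pdv_sq (hv.contDiff_psi.differentiable (by simp) x), h2, hv.pdv_dd]
    field_simp
    linear_combination (v x * pdv i v x) * h4
  rw [Lm, ← gin_eq]
  simp only [gin, h1, mul_assoc, ← Finset.mul_sum]
  ring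

/-- **barrier subsolutions of `Lm`** -/
theorem weak_Lm {v : EE n → ℝ} (hv : Sol v) (hΩ : IsOpen Ω) (hU : SC Ω U)
    (hζ : LocallyLipschitzOn Ω ζ) (h0 : ∀ x, 0 ≤ ζ x) (hc : HasCompactSupport ζ)
    (hs : tsupport ζ ⊆ Ω) (hg : Integrable fun x => ζ x * g x * psi v x ^ 2)
    (hb : ∀ᵐ x, ζ x ≠ 0 → DifferentiableAt ℝ U x →
      ∀ ε > 0, ∃ f, Touch U f x ∧ g x - ε ≤ Lm v f x) :
    ∫ x, ζ x * g x * psi v x ^ 2 ≤ -∫ x, gin U ζ x * psi v x ^ 2 := by
  simp only [mul_assoc] at hg ⊢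
  refine weak_wt (m := fun x => psi v x ^ 2) hΩ hU hζ h0 hc hs
    ((contDiff_infty.1 hv.contDiff_psi 1).pow 2) (fun x => pow_pos (hv.psi_pos x) 2) hg ?_
  filter_upwards [hb] with x hx h1 h2 ε hε
  have h3 := pow_pos (hv.psi_pos x) 2
  obtain ⟨f, hf, h4⟩ := hx h1 h2 _ (div_pos hε h3)
  refine ⟨f, hf, ?_⟩
  have h5 := mul_le_mul_of_nonneg_left h4 h3.le
  rw [psi_Lm hv, mul_sub, mul_div_cancel₀ _ h3.ne'] at h5
  linarith

/-! ### the class `SC` -/

theorem SC.mono (hU : SC Ω U) {Ω' : Set (EE n)} (h : Ω' ⊆ Ω) : SC Ω' U :=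
  fun K hK => hU K (hK.trans h)

theorem SC.add (hU : SC Ω U) (hW : SC Ω W) : SC Ω fun x => U x + W x := by
  intro K h hK
  obtain ⟨C, δ, hC, hδ, H⟩ := hU K h hK
  obtain ⟨C', δ', hC', hδ', H'⟩ := hW K h hK
  refine ⟨C + C', min δ δ', by positivity, lt_min hδ hδ', fun x hx => ?_⟩
  obtain ⟨p, h1, h2⟩ := H x hx
  obtain ⟨p', h1', h2'⟩ := H' x hx
  refine ⟨p + p', (norm_add_le _ _).trans (add_le_add h1 h1'), fun y hy => ?_⟩
  rw [inner_add_left]
  linarith [h2 y (hy.trans (min_le_left _ _)), h2' y (hy.trans (min_le_right _ _))]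

theorem SC.max (hU : SC Ω U) (hW : SC Ω W) : SC Ω fun x => max (U x) (W x) := by
  intro K h hK
  obtain ⟨C, δ, hC, hδ, H⟩ := hU K h hK
  obtain ⟨C', δ', hC', hδ', H'⟩ := hW K h hK
  refine ⟨C + C', min δ δ', by positivity, lt_min hδ hδ', fun x hx => ?_⟩
  rcases le_total (U x) (W x) with h0 | h0
  · obtain ⟨p, h1, h2⟩ := H' x hx
    refine ⟨p, by linarith, fun y hy => le_max_of_le_right ?_⟩
    simp only [max_eq_right h0]
    nlinarith [h2 y (hy.trans (min_le_right _ _)), sq_nonneg ‖y‖]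
  · obtain ⟨p, h1, h2⟩ := H x hx
    refine ⟨p, by linarith, fun y hy => le_max_of_le_left ?_⟩
    simp only [max_eq_left h0]
    nlinarith [h2 y (hy.trans (min_le_left _ _)), sq_nonneg ‖y‖]


/-- second order Taylor bound, uniform near a compact set -/
theorem taylor_cpt {G : Type*} [NormedAddCommGroup G] [NormedSpace ℝ G] [ProperSpace G]
    {F : G → ℝ} {S : Set G} (hS : IsCompact S) (hF : ∀ a ∈ S, ContDiffAt ℝ 2 F a) :
    ∃ C δ : ℝ, 0 ≤ C ∧ 0 < δ ∧ ∀ a ∈ S, ‖fderiv ℝ F a‖ ≤ C ∧ ∀ b, ‖b‖ ≤ δ →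
      ContDiffAt ℝ 2 F (a + b) ∧ |F (a + b) - F a - fderiv ℝ F a b| ≤ C * ‖b‖ ^ 2 := by
  have hO : IsOpen {a | ContDiffAt ℝ 2 F a} :=
    isOpen_iff_mem_nhds.2 fun a ha => ContDiffAt.eventually ha (by simp)
  obtain ⟨δ, hδ, h0⟩ := hS.exists_cthickening_subset_open hO hF
  have h1 : ∀ {a}, a ∈ cthickening δ S → ContDiffAt ℝ 2 F a := fun h => h0 h
  have h2 : LocallyLipschitzOn (cthickening δ S) (fderiv ℝ F) := fun a ha => by
    obtain ⟨L, t, ht, h⟩ := ((h1 ha).fderiv_right (m := 1) (by norm_num)).exists_lipschitzOnWith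
    exact ⟨L, t, mem_nhdsWithin_of_mem_nhds ht, h⟩
  obtain ⟨L, hL⟩ := h2.exists_lipschitzOnWith_of_compact hS.cthickening
  obtain ⟨C, hC⟩ := hS.exists_bound_of_continuousOn
    (h2.continuousOn.mono (self_subset_cthickening S))
  refine ⟨|C| + L, δ, by positivity, hδ, fun a ha => ⟨by
    linarith [hC a ha, le_abs_self C, L.coe_nonneg], fun b hb => ?_⟩⟩
  have h3 : closedBall a ‖b‖ ⊆ cthickening δ S :=
    (closedBall_subset_closedBall hb).trans (closedBall_subset_cthickening ha δ)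
  have h5 : a + b ∈ closedBall a ‖b‖ := by simp
  have h4 := (convex_closedBall a ‖b‖).norm_image_sub_le_of_norm_fderiv_le' (f := F)
    (φ := fderiv ℝ F a) (C := L * ‖b‖) (fun z hz => (h1 (h3 hz)).differentiableAt (by simp))
    (fun z hz => by
      rw [← dist_eq_norm]
      exact (hL.dist_le_mul z (h3 hz) a (self_subset_cthickening S ha)).trans
        (mul_le_mul_of_nonneg_left hz L.2))
    (mem_closedBall_self (norm_nonneg b)) h5
  rw [add_sub_cancel_left] at h4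
  refine ⟨h1 (h3 h5), h4.trans ?_⟩
  nlinarith [abs_nonneg C, sq_nonneg ‖b‖]

theorem SC.of_contDiffAt (hf : ∀ x ∈ Ω, ContDiffAt ℝ 2 f x) : SC Ω f := by
  intro K h hK
  obtain ⟨C, δ, hC, hδ, H⟩ := taylor_cpt hK fun x hx => hf x (h hx)
  refine ⟨C, δ, hC, hδ, fun x hx => ⟨∇ f x, (St.norm_grad f x).trans_le (H x hx).1, fun y hy => ?_⟩⟩
  rw [inner_grad]
  linarith [(abs_le.1 ((H x hx).2 y hy).2).1]

/-- composition with a function which is increasing in the last variable -/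
theorem SC.comp (hΩ : IsOpen Ω) (hU : SC Ω U) {F : EE n × ℝ → ℝ} {J : Set (EE n × ℝ)}
    (hJ : IsOpen J) (hF : ContDiffOn ℝ 2 F J)
    (hm : ∀ y r s, (y, r) ∈ J → (y, s) ∈ J → r ≤ s → F (y, r) ≤ F (y, s))
    (hUJ : ∀ x ∈ Ω, (x, U x) ∈ J) : SC Ω fun x => F (x, U x) := by
  intro K h hK
  obtain ⟨C, δ, hC, hδ, H⟩ := hU K h hK
  have hS : IsCompact ((fun x => (x, U x)) '' K) := hK.image_of_continuousOn
    (continuousOn_id.prodMk ((hU.locLip hΩ).continuousOn.mono h))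
  have hSJ : (fun x => (x, U x)) '' K ⊆ J := image_subset_iff.2 fun x hx => hUJ x (h hx)
  obtain ⟨D, δ1, hD, h1, H1⟩ := taylor_cpt hS fun a ha => hF.contDiffAt (hJ.mem_nhds (hSJ ha))
  obtain ⟨δ2, h2, H2⟩ := hS.exists_cthickening_subset_open hJ hSJ
  obtain ⟨δ3, h3, H3⟩ := hK.exists_cthickening_subset_open hΩ h
  refine ⟨D * (1 + C) + C * D + D * (1 + 2 * C) ^ 2,
    min (min δ δ3) (min 1 (min δ1 δ2 / (1 + 2 * C))), by positivity, by positivity, fun x hx => ?_⟩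
  obtain ⟨p, hp, hp'⟩ := H x hx
  obtain ⟨a1, a2⟩ := H1 _ ⟨x, hx, rfl⟩
  set A := fderiv ℝ F (x, U x)
  have a3 : ∀ y : EE n, |⟪p, y⟫| ≤ C * ‖y‖ := fun y =>
    (abs_real_inner_le_norm p y).trans (mul_le_mul_of_nonneg_right hp (norm_nonneg _))
  refine ⟨(toDual ℝ (EE n)).symm (A ∘L (ContinuousLinearMap.id ℝ _).prod (innerSL ℝ p)), ?_,
    fun y hy => ?_⟩
  · rw [LinearIsometryEquiv.norm_map]
    refine (ContinuousLinearMap.opNorm_le_bound _ (M := D * (1 + C)) (by positivity)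
      fun y => (A.le_opNorm (y, ⟪p, y⟫)).trans ?_).trans (by nlinarith [sq_nonneg (1 + 2 * C)])
    rw [mul_assoc]
    refine mul_le_mul a1 (max_le ?_ ((a3 y).trans ?_)) (norm_nonneg _) hD <;>
      nlinarith [norm_nonneg y]
  · simp only [le_min_iff] at hy
    obtain ⟨⟨b1, b2⟩, b3, b4⟩ := hy
    rw [le_div_iff₀ (by positivity), le_min_iff] at b4
    have b0 := norm_nonneg y
    set b : EE n × ℝ := (y, ⟪p, y⟫ - C * ‖y‖ ^ 2) with hb
    have b5 : ‖b‖ ≤ ‖y‖ * (1 + 2 * C) := by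
      have c1 : C * ‖y‖ ^ 2 ≤ C * ‖y‖ := mul_le_mul_of_nonneg_left (by nlinarith) hC
      have c2 := abs_le.1 (a3 y)
      have c3 : 0 ≤ C * ‖y‖ ^ 2 := by positivity
      refine max_le (by nlinarith) (abs_le.2 ⟨?_, ?_⟩) <;> nlinarith
    have b6 := (abs_le.1 (a2 b (b5.trans b4.1)).2).1
    have b7 : A b = A (y, ⟪p, y⟫) - C * ‖y‖ ^ 2 * A (0, 1) := by
      rw [← smul_eq_mul _ (A _), ← map_smul, ← map_sub]
      simp [hb]
    have b8 : A (0, 1) ≤ D := (le_abs_self _).trans ((A.le_opNorm (0, 1)).trans (by simpa using a1))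
    have b9 : F ((x, U x) + b) ≤ F (x + y, U (x + y)) :=
      hm _ _ _ (H2 (mem_cthickening_of_dist_le ((x, U x) + b) _ _ _ ⟨x, hx, rfl⟩ (by
        simpa using b5.trans b4.2))) (hUJ _ (H3 (mem_cthickening_of_dist_le _ x _ _ hx (by
          simpa using b2)))) (by linarith [hp' y b1])
    have c1 := mul_le_mul_of_nonneg_left (pow_le_pow_left₀ (norm_nonneg _) b5 2) hD
    have c2 := mul_le_mul_of_nonneg_left b8 (by positivity : 0 ≤ C * ‖y‖ ^ 2)
    have c3 : 0 ≤ D * (1 + C) * ‖y‖ ^ 2 := by positivity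
    rw [toDual_symm_apply]
    change F (x, U x) + A (y, ⟪p, y⟫) - _ ≤ F (x + y, U (x + y))
    nlinarith

theorem SC.comp1 (hΩ : IsOpen Ω) (hU : SC Ω U) {F : ℝ → ℝ} {J : Set ℝ} (hJ : IsOpen J)
    (hF : ContDiffOn ℝ 2 F J) (hm : MonotoneOn F J) (hUJ : ∀ x ∈ Ω, U x ∈ J) :
    SC Ω fun x => F (U x) :=
  hU.comp hΩ (F := fun z => F z.2) (J := Prod.snd ⁻¹' J) (hJ.preimage continuous_snd)
    (hF.comp contDiffOn_snd fun _ h => h) (fun _ _ _ h1 h2 h => hm h1 h2 h) hUJ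


/-! ### supports -/

theorem Touch.refl (hf : ContDiffAt ℝ 2 f x) : Touch f f x :=
  ⟨hf, rfl, Eventually.of_forall fun _ => le_rfl⟩

theorem Touch.add (h : Touch U f x) (h' : Touch W g x) :
    Touch (fun y => U y + W y) (fun y => f y + g y) x :=
  ⟨h.c2.add h'.c2, by rw [h.eq, h'.eq], (h.le.and h'.le).mono fun _ hy => add_le_add hy.1 hy.2⟩

theorem Touch.comp (h : Touch U f x) (hU : ContinuousAt U x) {F : EE n × ℝ → ℝ}
    {J : Set (EE n × ℝ)} (hJ : J ∈ 𝓝 (x, U x)) (hF : ContDiffAt ℝ 2 F (x, U x))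
    (hm : ∀ y r s, (y, r) ∈ J → (y, s) ∈ J → r ≤ s → F (y, r) ≤ F (y, s)) :
    Touch (fun y => F (y, U y)) (fun y => F (y, f y)) x := by
  refine ⟨ContDiffAt.comp (g := F) x (h.eq ▸ hF) (contDiffAt_id.prodMk h.c2), by rw [h.eq], ?_⟩
  filter_upwards [h.le, (continuousAt_id.prodMk hU).preimage_mem_nhds hJ,
    (continuousAt_id.prodMk h.c2.continuousAt).preimage_mem_nhds (h.eq ▸ hJ)] with y h1 h2 h3
  exact hm _ _ _ h3 h2 h1

theorem Touch.comp1 (h : Touch U f x) (hU : ContinuousAt U x) {F : ℝ → ℝ} {J : Set ℝ}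
    (hJ : J ∈ 𝓝 (U x)) (hF : ContDiffAt ℝ 2 F (U x)) (hm : MonotoneOn F J) :
    Touch (fun y => F (U y)) (fun y => F (f y)) x :=
  h.comp hU (F := fun z => F z.2) (J := Prod.snd ⁻¹' J)
    (continuous_snd.continuousAt.preimage_mem_nhds hJ) (hF.comp (x, U x) contDiffAt_snd)
    fun _ _ _ h1 h2 h => hm h1 h2 h

end

end Crest.Agent.N067.V
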